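import Vale.Agent.P295.AllButOne

namespace Vale.Agent.Results.P295.AllButOneQuadratic

open MvPolynomial

/-- A stable coordinate of degree at most two in all variables but one is a coordinate, in every
number of variables. -/
theorem result : ∀ (n : ℕ) (i : Fin n) (f : MvPolynomial (Fin n) ℂ),
    (∀ d ∈ f.support, (∑ l ∈ Finset.univ.erase i, d l) ≤ 2) →
    Vale.Agent.P295.IsStableCoordinate f → Vale.Agent.P295.IsCoordinate f :=
  fun _ i _ hf hs => Vale.Agent.P295.isCoordinate_all_but_one i hf hs

end Vale.Agent.Results.P295.AllButOneQuadratic
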