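import Vale.Agent.P295.Disproof.Main

namespace Vale.Agent.Results.P295.StableCoordinateFails

open MvPolynomial

/-- Some stable coordinate is not a coordinate. -/
theorem result : ∃ (n : ℕ) (f : MvPolynomial (Fin n) ℂ),
    Vale.Agent.P295.IsStableCoordinate f ∧ ¬ Vale.Agent.P295.IsCoordinate f :=
  Vale.Agent.P295.Disproof.stable_not_coordinate

end Vale.Agent.Results.P295.StableCoordinateFails
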